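import Vale.Agent.Results.P113.ForceCompiler

open Set
open scoped ContDiff
open Vale.Agent.Lib.P113

/-- **Full positive answer to Q1, stated without naming the construction.**  For every computable
viscosity `ν > 0` there are a point `a`, an open set `O` of the torus (a `1`-periodic open subset
of `ℝ^3`), a time `T₀` and a force compiler `comp` (a computable total map from descriptions of
pairs (machine, input) to programs) such that for every machine `M` there are a period `P > 0` and
a field `g`, `P`-periodic in time on `t ≥ T₀`, and for every input `w` the program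
`comp (M, w)` computes, in the sense of the problem, a smooth space-periodic force `f` that
coincides with `g` for `t ≥ T₀`; the forced Navier-Stokes system from rest has a global smooth
solution `(u, 0)`, which is the only classical solution on each `[0,T]`; the trajectory of `a`
exists, is unique, and lies in `O` at some time `t ≥ 0` iff `M` halts on `w`. -/
theorem Vale.Agent.Results.P113.CompilerExists.result (ν : ℝ) (hν : 0 < ν) (hc : CompReal ν) :
    ∃ (a : V3) (O : Set V3) (T₀ : ℝ) (comp : Desc × List ℕ → Nat.Partrec.Code),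
    IsOpen O ∧ (∀ x i, x + ee i ∈ O ↔ x ∈ O) ∧ Computable comp ∧
    ∀ M : Machine, ∃ (P : ℝ) (g : ℝ → V3 → V3), 0 < P ∧ (∀ t : ℝ, T₀ ≤ t → g (t + P) = g t) ∧
    ∀ w : List M.S, ∃ f u : ℝ → V3 → V3,
      IsProgramFor (comp (M.descr, Machine.word w)) f ∧
      ContDiff ℝ ∞ (fun p : ℝ × V3 => f p.1 p.2) ∧
      (∀ t, Per (f t)) ∧
      (∀ t : ℝ, T₀ ≤ t → f t = g t) ∧
      ContDiff ℝ ∞ (fun p : ℝ × V3 => u p.1 p.2) ∧
      (∀ T : ℝ, ClassicalSol ν f T u (fun _ _ => 0)) ∧
      (∀ (T : ℝ) (u' : ℝ → V3 → V3) (p' : ℝ → V3 → ℝ), 0 < T → ClassicalSol ν f T u' p' →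
        ∀ t ∈ Icc 0 T, ∀ x, u' t x = u t x ∧ p' t x = 0) ∧
      (∃ X, IsTraj u a X) ∧
      (∀ X Y, IsTraj u a X → IsTraj u a Y → ∀ t, 0 ≤ t → X t = Y t) ∧
      ∀ X, IsTraj u a X → ((∃ t, 0 ≤ t ∧ X t ∈ O) ↔ M.HaltsOn w) := by
  obtain ⟨hO, hOp, comp, hcomp, h⟩ := Vale.Agent.Results.P113.ForceCompiler.result ν hν hc
  refine ⟨aStar, target, 3, comp, hO, hOp, hcomp, fun M => ⟨14, M.force ν [], by norm_num,
    (h M []).2.2.2.2.1, fun w => ⟨M.force ν w, M.vel w, ?_⟩⟩⟩
  obtain ⟨h1, h2, h3, h4, -, h6, h7, h8, h9, h10, h11⟩ := h M w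
  exact ⟨h1, h2, h3, fun t ht => h4 [] t ht, h6, h7, h8, h9, h10, h11⟩
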