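import Vale.Agent.Lib.P113.Final

open Set
open scoped ContDiff
open Vale.Agent.Lib.P113

/-- For every viscosity `ν > 0`, with the universal starting point `aStar = 0` and the universal
open slab `target` of the torus: for every Turing machine `M` and input `w` the explicit smooth
force `M.force ν w` (which for `t ≥ 3` is `14`-periodic in time and does not depend on `w`) admits
the explicit global smooth solution `(M.vel w, 0)` of the forced Navier-Stokes system from rest, and
the particle trajectory from `aStar` exists, is unique, and meets `target` iff `M` halts on `w`. -/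
theorem Vale.Agent.Results.P113.HaltingFlow.result (ν : ℝ) (_hν : 0 < ν) :
    IsOpen target ∧ (∀ x i, x + ee i ∈ target ↔ x ∈ target) ∧
    ∀ (M : Machine) (w : List M.S),
      ContDiff ℝ ∞ (fun p : ℝ × V3 => M.force ν w p.1 p.2) ∧
      (∀ t, Per (M.force ν w t)) ∧
      (∀ (w' : List M.S) (t : ℝ), 3 ≤ t → M.force ν w t = M.force ν w' t) ∧
      (∀ t : ℝ, 3 ≤ t → M.force ν w (t + 14) = M.force ν w t) ∧
      ContDiff ℝ ∞ (fun p : ℝ × V3 => M.vel w p.1 p.2) ∧
      (∀ T : ℝ, ClassicalSol ν (M.force ν w) T (M.vel w) (fun _ _ => 0)) ∧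
      (∃ X, IsTraj (M.vel w) aStar X) ∧
      (∀ X Y, IsTraj (M.vel w) aStar X → IsTraj (M.vel w) aStar Y → ∀ t, 0 ≤ t → X t = Y t) ∧
      ∀ X, IsTraj (M.vel w) aStar X → ((∃ t, 0 ≤ t ∧ X t ∈ target) ↔ M.HaltsOn w) := by
  refine ⟨target_isOpen, target_per, fun M w => ⟨Machine.force_contDiff ν w, Machine.force_per ν w,
    fun w' t ht => funext fun x => Machine.force_tail ν w w' t ht x,
    fun t ht => funext fun x => Machine.force_add ν w t ht x, Machine.vel_contDiff w,
    fun T => Machine.vel_classical ν w T, ⟨_, Machine.exists_traj w⟩, ?_,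
    fun X hX => Machine.main_dyn w X hX⟩⟩
  intro X Y hX hY t ht
  have h1 : ((⌊t⌋₊ : ℕ) : ℝ) ≤ t := Nat.floor_le ht
  have h2 : t ≤ (⌊t⌋₊ : ℕ) + 1 := (Nat.lt_floor_add_one t).le
  rw [traj_slot (fun n t h0 h1 x => Machine.vel_slot w n t h0 h1 x) (Machine.isShear_slotW w) hX
      ⌊t⌋₊ t h1 h2,
    traj_slot (fun n t h0 h1 x => Machine.vel_slot w n t h0 h1 x) (Machine.isShear_slotW w) hY
      ⌊t⌋₊ t h1 h2]
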